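import Vale.Agent.P011.E6.Tw2
import Vale.Agent.P011.E6I.HFin
import Vale.Agent.P011.H261.Rl.Fin

open Module NumberField

namespace Vale.Agent.Results.P011.BTypeE6All

open Vale.Agent.P011.D4 Vale.Agent.P011.E6 Vale.Agent.P011.E6H

/-- The Margulis-Platonov conjecture for the anisotropic groups of type `E₆` over number fields.

(1) Outer groups with trivial Tits class: let `K/k` be a quadratic extension of number fields with
conjugation `σ`, let `C = (a, b, c)` be an octonion algebra over `k` that remains a division algebra
over `K`, and let `g` be weights such that the hermitian form of the space of hermitian matrices of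
degree three over `C` is anisotropic. Then every normal subgroup of the group of the linear
bijections that preserve the cubic norm and the hermitian form is central or everything, and there
is no proper subgroup of finite index.

(2) Inner groups: let `L/k` be a cyclic cubic extension of number fields, `ρ` a nontrivial
automorphism, `lam` an element of `k` that is not a norm, and `C = (a, b, c)` a division octonion
algebra over `k`. Then the same holds for the group of the linear bijections that preserve the cubic
norm and commute with the semilinear map `ph ρ lam`.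

(3) Outer groups with nontrivial Tits class: let `E/k` be a cyclic extension of number fields of
degree six, with automorphisms `ρ` and `σ` of orders three and two, let `K = k(√kap)` be the fixed
field of `ρ`, let `lam` in `K` be no norm from `E`, let `g` be weights which define a unitary
involution of the cyclic algebra `(E/K, ρ, lam)`, and let `C = (a, b, c)` be any division octonion
algebra over `k`. Then the group of the linear bijections that preserve the cubic norm and the
hermitian form and commute with `ph ρ lam` has no proper subgroup of finite index. -/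
theorem result :
    (∀ {k K : Type} [Field k] [NumberField k] [Field K] [Algebra k K], finrank k K = 2 →
      ∀ σ : K ≃ₐ[k] K, (∃ x, σ x ≠ x) → ∀ {a b c : kˣ}, Oct.Division (up K a) (up K b) (up K c) →
      ∀ g : Fin 3 → kˣ, (∀ x : AlbL K a b c, her σ (upG K g) x x = 0 → x = 0) →
      OnlyCentral (GHer σ (upG K g) a b c) ∧ NoIndex (GHer σ (upG K g) a b c)) ∧
    (∀ {k L : Type} [Field k] [NumberField k] [Field L] [Algebra k L], finrank k L = 3 →
      ∀ ρ : L ≃ₐ[k] L, (∃ x, ρ x ≠ x) → ∀ lam : kˣ, (∀ x : L, Algebra.norm k x ≠ lam) →
      ∀ {a b c : kˣ}, Oct.Division a b c →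
      OnlyCentral (GPh ρ (up L lam) a b c) ∧ NoIndex (GPh ρ (up L lam) a b c)) ∧
    (∀ {k E : Type} [Field k] [NumberField k] [Field E] [Algebra k E],
      ∀ (ρ σ : E ≃ₐ[k] E) {kap : kˣ}, IsSextic ρ σ kap → ∀ {a b c : kˣ}, Oct.Division a b c →
      ∀ (lam : Eˣ) (g : Fin 3 → Eˣ), IsForm ρ σ lam g →
      NoIndex (GHer σ g a b c ⊓ GPh ρ lam a b c)) := by
  refine ⟨?_, ?_, ?_⟩
  · intro k K _ _ _ _ hK σ hσ a b c hC γ hγ
    have : FiniteDimensional k K := Module.finite_of_finrank_eq_succ hK
    have : NumberField K := NumberField.of_module_finite k K
    rw [gp_eq]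
    have hσ' : σ ≠ 1 := by
      obtain ⟨x, hx⟩ := hσ
      rintro rfl
      exact hx rfl
    exact ⟨fun N => (gp_main' hK hσ' hC hγ N).2, fun N => (gp_main' hK hσ' hC hγ N).1⟩
  · intro k L _ _ _ _ hL ρ hρ lam hlam a b c hC
    have : FiniteDimensional k L := Module.finite_of_finrank_eq_succ hL
    have : NumberField L := NumberField.of_module_finite k L
    rw [gpi_eq]
    have hρ' : ρ ≠ 1 := by
      obtain ⟨x, hx⟩ := hρ
      rintro rfl
      exact hx rfl
    exact ⟨fun N => (Vale.Agent.P011.E6I.gpi_main hL hρ' hlam hC N).2,
      fun N => (Vale.Agent.P011.E6I.gpi_main hL hρ' hlam hC N).1⟩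
  · intro k E _ _ _ _ ρ σ kap hS a b c hC lam g hg
    have : FiniteDimensional k E := Module.finite_of_finrank_pos (by rw [hS.h6]; norm_num)
    have : NumberField E := NumberField.of_module_finite k E
    exact Vale.Agent.P011.H261.Rl.old3n ρ σ hS hC lam g hg

end Vale.Agent.Results.P011.BTypeE6All
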