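import Vale.Agent.P011.H272.MPAll
import Vale.Agent.P011.H627.Odd.SolvOdd
import Vale.Agent.P011.H976.Tow.Odd

open Module Topology NumberField

namespace Vale.Agent.Results.P011.DUnitaryAll

open Vale.Agent.P011.One Vale.Agent.P011.Pow

/-- The Margulis-Platonov conjecture for `G(k) = SU_1(D, *)`, `D` a central division algebra of
any degree `n ≥ 3` over a number field `K` with an arbitrary involution `*` of the second kind with
fixed field `k`: the diagonal map `δ` from `G(k)` to the product `H_A` of the groups `G(k_v)` over
the finite places `v` of `k` at which `G` is anisotropic has dense image, and every subgroup `N` of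
finite index is the preimage of an open subgroup `W`, which is normal if `N` is. -/
theorem result {k K D F : Type} [Field k] [NumberField k] [Field K] [NumberField K] [Algebra k K]
    [StarRing K] [DivisionRing D] [StarRing D] [Algebra k D] [Algebra K D] [IsScalarTower k K D]
    [StarModule K D] [FiniteDimensional K D] [Algebra.IsCentral K D] [Field F] [Algebra K F]
    (hfix : ∀ x : K, star x = x ↔ x ∈ Set.range (algebraMap k K)) (hK : ∃ x : K, star x ≠ x)
    {n : ℕ} (hn : 3 ≤ n) (hdeg : finrank K D = n ^ 2) (f : D →ₐ[K] Matrix (Fin n) (Fin n) F) :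
    ∃ δ : SUD f →* HA D n (Adiv k K D), IsDiagonal δ ∧ DenseRange δ ∧
      ∀ N : Subgroup (SUD f), N.index ≠ 0 → IsOpenPreimage δ N :=
  Vale.Agent.P011.H272.q1_of_mp hfix hK hn
    (Vale.Agent.P011.H272.mp_all_of (fun _ h3 ho => Vale.Agent.P011.H627.Odd.solv_odd h3 ho)
      (fun _ h3 ho h => Vale.Agent.P011.H976.Tow.mp_double_odd h3 ho h) hn) hdeg f

end Vale.Agent.Results.P011.DUnitaryAll
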