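import Vale.Agent.P011.H305.Odd.FinC

open Module

namespace Vale.Agent.Results.P011.OuterAllFF

open Vale.Agent.P011.H732F
open Vale.Agent.P011.H738 (IsGlobalFunctionField)

/-- **The Margulis-Platonov conjecture for the outer forms of type `A` over global function
fields**, of every characteristic. Let `K` be a field with a nontrivial involution
whose fixed field `k` is a global function field, `A` a central simple
algebra of degree `n ≥ 3` over `K` with an involution `*` of the second kind which extends the one
of `K` and is anisotropic (`x* x = 0` only for `x = 0`), and `G(k) = SU(A, *)` the group of the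
elements of `A` with `g g* = 1` and reduced norm one. Then the diagonal map `δ` of `G(k)` to the
product `H_A` of the groups `G(k_v)` over the places `v` of `k` at which `G` is anisotropic has
dense image, and every subgroup `N` of finite index of `G(k)` is the preimage of an open subgroup
`W` of `H_A`, which is normal if `N` is normal. If `A` is not a division algebra, then `G(k)` has
no proper subgroup of finite index. -/
theorem result {k K A F : Type} [Field k] [Field K] [Algebra k K] [StarRing K] [Ring A]
    [StarRing A] [Algebra k A] [Algebra K A] [IsScalarTower k K A] [StarModule K A]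
    [Algebra.IsCentral K A] [IsSimpleRing A] [Field F] [Algebra K F]
    (hk : IsGlobalFunctionField k)
    (hfix : ∀ x : K, star x = x ↔ x ∈ Set.range (algebraMap k K)) (hK : ∃ x : K, star x ≠ x)
    {n : ℕ} (hn : 3 ≤ n) (hdeg : finrank K A = n ^ 2) (hA : ∀ x : A, star x * x = 0 → x = 0)
    (f : A →ₐ[K] Matrix (Fin n) (Fin n) F) :
    ∃ δ : GK f →* HA A n (Adiv k K A), IsDiagonal δ ∧ DenseRange δ ∧
      ∀ N : Subgroup (GK f), N.index ≠ 0 → IsOpenPreimage δ N ∧
        ((∃ x : A, x ≠ 0 ∧ ¬ IsUnit x) → N = ⊤) :=
  Vale.Agent.P011.H305.AllF.all_char hk
    { fixed := hfix
      star_ne := hK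
      central := inferInstance
      simple := inferInstance
      finrank_eq := hdeg
      anisotropic := hA } hn f

end Vale.Agent.Results.P011.OuterAllFF
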